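import Vale.Agent.Lib.P060.Final

/-!
P060: Hadwiger's conjecture for graphs with a sparse complement, and clique minors of graphs of
independence number two with small clique number.
-/

namespace Vale.Agent.Results.P060.SparseComplement

open Vale.Agent.P060

theorem sparse (V : Type) [Fintype V] (G : SimpleGraph V)
    (hdeg : ∀ v : V, (({w : V | w ≠ v ∧ ¬ G.Adj v w}.ncard : ℕ) : ℝ) ≤
      1 / 128 * (Fintype.card V : ℝ) ^ ((3 : ℝ) / 4)) :
    HasCliqueMinor G ((Fintype.card V + 1) / 2) := by
  classical
  apply final_type
  intro v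
  refine le_trans (le_of_eq ?_) (le_trans (hdeg v) (le_of_eq (by ring)))
  rw [Set.ncard_eq_toFinset_card']
  refine congrArg Nat.cast (congrArg Finset.card ?_)
  ext w
  simp

/-- There is an absolute constant `c > 0` such that
(1) every finite graph `G` on `m` vertices in which every vertex is non-adjacent to at most
`c m^(3/4)` other vertices has a `K_⌈m/2⌉` minor, and if moreover `G` is `⌈m/2⌉`-colourable, then
`G` satisfies Hadwiger's conjecture;
(2) every finite graph on `m` vertices with independence number at most two and clique number at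
most `c m^(3/4)` has a `K_⌈m/2⌉` minor. -/
theorem result : ∃ c : ℝ, 0 < c ∧
    (∀ (V : Type) [Fintype V] (G : SimpleGraph V),
      (∀ v : V, (({w : V | w ≠ v ∧ ¬ G.Adj v w}.ncard : ℕ) : ℝ) ≤
        c * (Fintype.card V : ℝ) ^ ((3 : ℝ) / 4)) →
      HasCliqueMinor G ((Fintype.card V + 1) / 2) ∧
        (G.Colorable ((Fintype.card V + 1) / 2) →
          ∃ t : ℕ, G.Colorable t ∧ HasCliqueMinor G t)) ∧
    (∀ (V : Type) [Fintype V] (G : SimpleGraph V),
      (∀ s : Finset V, G.IsIndepSet (s : Set V) → s.card ≤ 2) →
      (∀ s : Finset V, G.IsClique (s : Set V) →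
        (s.card : ℝ) ≤ c * (Fintype.card V : ℝ) ^ ((3 : ℝ) / 4)) →
      HasCliqueMinor G ((Fintype.card V + 1) / 2)) := by
  refine ⟨1 / 128, by norm_num, ?_, ?_⟩
  · intro V _ G hdeg
    have h := sparse V G hdeg
    exact ⟨h, fun hc => ⟨_, hc, h⟩⟩
  · intro V _ G halpha homega
    classical
    apply sparse
    intro v
    rw [Set.ncard_eq_toFinset_card']
    apply homega
    intro a ha b hb hab
    rw [Set.coe_toFinset, Set.mem_ofPred_eq] at ha hb
    by_contra hc
    have hind : G.IsIndepSet ((({v, a, b} : Finset V)) : Set V) := by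
      rw [SimpleGraph.isIndepSet_iff]
      intro x hx y hy hxy
      simp only [Finset.coe_insert, Finset.coe_singleton, Set.mem_insert_iff,
        Set.mem_singleton_iff] at hx hy
      rcases hx with rfl | rfl | rfl <;> rcases hy with rfl | rfl | rfl <;>
        first
        | exact absurd rfl hxy
        | exact ha.2
        | exact hb.2
        | exact fun h => ha.2 h.symm
        | exact fun h => hb.2 h.symm
        | exact hc
        | exact fun h => hc h.symm
    have h3 := halpha _ hind
    have h4 : ({v, a, b} : Finset V).card = 3 := by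
      rw [Finset.card_eq_three]
      exact ⟨v, a, b, Ne.symm ha.1, Ne.symm hb.1, hab, rfl⟩
    omega

end Vale.Agent.Results.P060.SparseComplement
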