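import Vale.Agent.Lib.P060.Hadwiger

/-!
P060: Hadwiger's conjecture for graphs with a sparse complement, in particular for graphs with
independence number at most two and small clique number.
-/

namespace Vale.Agent.Results.P060.SparseHadwiger

open Vale.Agent.P060

theorem compl_le (V : Type) [Fintype V] (G : SimpleGraph V)
    (halpha : ∀ s : Finset V, G.IsIndepSet (s : Set V) → s.card ≤ 2) (r : ℝ)
    (homega : ∀ s : Finset V, G.IsClique (s : Set V) → (s.card : ℝ) ≤ r) (v : V) :
    (({w : V | w ≠ v ∧ ¬ G.Adj v w}.ncard : ℕ) : ℝ) ≤ r := by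
  classical
  rw [Set.ncard_eq_toFinset_card']
  apply homega
  intro a ha b hb hab
  rw [Set.coe_toFinset, Set.mem_ofPred_eq] at ha hb
  by_contra hc
  have hind : G.IsIndepSet ((({v, a, b} : Finset V)) : Set V) := by
    rw [SimpleGraph.isIndepSet_iff]
    intro x hx y hy hxy
    simp only [Finset.coe_insert, Finset.coe_singleton, Set.mem_insert_iff,
      Set.mem_singleton_iff] at hx hy
    rcases hx with rfl | rfl | rfl <;> rcases hy with rfl | rfl | rfl <;>
      first
      | exact absurd rfl hxy
      | exact ha.2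
      | exact hb.2
      | exact fun h => ha.2 h.symm
      | exact fun h => hb.2 h.symm
      | exact hc
      | exact fun h => hc h.symm
  have h3 := halpha _ hind
  have h4 : ({v, a, b} : Finset V).card = 3 := by
    rw [Finset.card_eq_three]
    exact ⟨v, a, b, Ne.symm ha.1, Ne.symm hb.1, hab, rfl⟩
  omega

theorem hadwiger (V : Type) [Fintype V] (G : SimpleGraph V)
    (hdeg : ∀ v : V, (({w : V | w ≠ v ∧ ¬ G.Adj v w}.ncard : ℕ) : ℝ) ≤
      1 / 256 * (Fintype.card V : ℝ) ^ ((3 : ℝ) / 4))
    (homega : ∀ s : Finset V, G.IsClique (s : Set V) → 4 * s.card ≤ Fintype.card V) :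
    ∃ t : ℕ, G.Colorable t ∧ HasCliqueMinor G t := by
  classical
  apply hadwiger_sparse V G _ homega
  intro v
  refine le_trans (le_of_eq ?_) (le_trans (hdeg v) (le_of_eq (by ring)))
  rw [Set.ncard_eq_toFinset_card']
  refine congrArg Nat.cast (congrArg Finset.card ?_)
  ext w
  simp

theorem half (V : Type) [Fintype V] (G : SimpleGraph V)
    (hdeg : ∀ v : V, (({w : V | w ≠ v ∧ ¬ G.Adj v w}.ncard : ℕ) : ℝ) ≤
      1 / 256 * (Fintype.card V : ℝ) ^ ((3 : ℝ) / 4)) :
    HasCliqueMinor G ((Fintype.card V + 1) / 2) := by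
  classical
  apply final_type
  intro v
  have h0 : (0 : ℝ) ≤ (Fintype.card V : ℝ) ^ ((3 : ℝ) / 4) := by positivity
  refine le_trans (le_of_eq ?_) (le_trans (hdeg v) (by linarith))
  rw [Set.ncard_eq_toFinset_card']
  refine congrArg Nat.cast (congrArg Finset.card ?_)
  ext w
  simp

/-- There is an absolute constant `c > 0` such that, for every finite graph `G` on `m` vertices:
(1) if every vertex is non-adjacent to at most `c m^(3/4)` other vertices and every clique has at
most `m/4` vertices, then `G` satisfies Hadwiger's conjecture: for some `t` it is `t`-colourable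
and has a `K_t` minor;
(2) if the independence number is at most two and the clique number at most `c m^(3/4)`, then `G`
satisfies Hadwiger's conjecture;
(3) if every vertex is non-adjacent to at most `c m^(3/4)` other vertices, then `G` has a
`K_⌈m/2⌉` minor. -/
theorem result : ∃ c : ℝ, 0 < c ∧
    (∀ (V : Type) [Fintype V] (G : SimpleGraph V),
      (∀ v : V, (({w : V | w ≠ v ∧ ¬ G.Adj v w}.ncard : ℕ) : ℝ) ≤
        c * (Fintype.card V : ℝ) ^ ((3 : ℝ) / 4)) →
      (∀ s : Finset V, G.IsClique (s : Set V) → 4 * s.card ≤ Fintype.card V) →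
      ∃ t : ℕ, G.Colorable t ∧ HasCliqueMinor G t) ∧
    (∀ (V : Type) [Fintype V] (G : SimpleGraph V),
      (∀ s : Finset V, G.IsIndepSet (s : Set V) → s.card ≤ 2) →
      (∀ s : Finset V, G.IsClique (s : Set V) →
        (s.card : ℝ) ≤ c * (Fintype.card V : ℝ) ^ ((3 : ℝ) / 4)) →
      ∃ t : ℕ, G.Colorable t ∧ HasCliqueMinor G t) ∧
    (∀ (V : Type) [Fintype V] (G : SimpleGraph V),
      (∀ v : V, (({w : V | w ≠ v ∧ ¬ G.Adj v w}.ncard : ℕ) : ℝ) ≤
        c * (Fintype.card V : ℝ) ^ ((3 : ℝ) / 4)) →
      HasCliqueMinor G ((Fintype.card V + 1) / 2)) := by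
  refine ⟨1 / 256, by norm_num, ?_, ?_, ?_⟩
  · intro V _ G hdeg homega
    exact hadwiger V G hdeg homega
  · intro V _ G halpha homega
    refine hadwiger V G (compl_le V G halpha _ homega) ?_
    intro s hs
    have h1 := homega s hs
    have h2 : (Fintype.card V : ℝ) ^ ((3 : ℝ) / 4) ≤ Fintype.card V := by
      rcases Nat.eq_zero_or_pos (Fintype.card V) with h0 | hpos
      · rw [h0, Nat.cast_zero, Real.zero_rpow (by norm_num)]
      · have h3 : (1 : ℝ) ≤ Fintype.card V := by exact_mod_cast hpos
        conv_rhs => rw [← Real.rpow_one (Fintype.card V : ℝ)]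
        exact Real.rpow_le_rpow_of_exponent_le h3 (by norm_num)
    have h4 : (0 : ℝ) ≤ Fintype.card V := Nat.cast_nonneg _
    have h5 : 4 * (s.card : ℝ) ≤ Fintype.card V := by linarith
    exact_mod_cast h5
  · intro V _ G hdeg
    exact half V G hdeg

end Vale.Agent.Results.P060.SparseHadwiger
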